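import Mathlib

/-! Definitions used in the statement of the area law. -/

namespace Vale.Agent.P356

open Finset Matrix
open scoped ComplexConjugate ComplexOrder

section
variable {ι : Type} [Fintype ι] [DecidableEq ι] {q : ℕ}

/-- The configuration equal to `α` on `A` and to `β` off `A`. -/
def glue (A : Finset ι) (α : A → Fin q) (β : {x // x ∉ A} → Fin q) : ι → Fin q :=
  fun x => if h : x ∈ A then α ⟨x, h⟩ else β ⟨x, h⟩

/-- The reduced density matrix on `A` of the vector `Ω`. -/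
def redDens (A : Finset ι) (Ω : (ι → Fin q) → ℂ) : Matrix (A → Fin q) (A → Fin q) ℂ :=
  fun α α' => ∑ β : {x // x ∉ A} → Fin q, Ω (glue A α β) * conj (Ω (glue A α' β))

theorem redDens_isHermitian (A : Finset ι) (Ω : (ι → Fin q) → ℂ) :
    (redDens A Ω).IsHermitian := by
  ext α α'
  simp [redDens, conjTranspose_apply, mul_comm]

/-- The von Neumann entropy of the reduced density matrix. -/
noncomputable def entropy (A : Finset ι) (Ω : (ι → Fin q) → ℂ) : ℝ :=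
  ∑ i, Real.negMulLog ((redDens_isHermitian A Ω).eigenvalues i)

/-- `h` acts on the tensor factors in `X` and as the identity elsewhere. -/
def ActsOn (X : Finset ι) (h : Matrix (ι → Fin q) (ι → Fin q) ℂ) : Prop :=
  ∃ a : Matrix (X → Fin q) (X → Fin q) ℂ, ∀ σ σ' : ι → Fin q,
    h σ σ' = if ∀ x ∉ X, σ x = σ' x then a (fun x => σ x) (fun x => σ' x) else 0

/-- `Ω` is a unit eigenvector of `H` with eigenvalue `E₀` and `H - E₀ ≥ Δ (1 - |Ω⟩⟨Ω|)`. -/
def GroundGap (H : Matrix (ι → Fin q) (ι → Fin q) ℂ) (Ω : (ι → Fin q) → ℂ) (Δ : ℝ) : Prop :=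
  star Ω ⬝ᵥ Ω = 1 ∧ ∃ E₀ : ℝ, H *ᵥ Ω = (E₀ : ℂ) • Ω ∧
    (H - (E₀ : ℂ) • 1 - (Δ : ℂ) • (1 - vecMulVec Ω (star Ω))).PosSemidef

/-- `K ≥ Δ` on the orthogonal complement of the kernel of `K`. -/
def GapAboveKernel (K : Matrix (ι → Fin q) (ι → Fin q) ℂ) (Δ : ℝ) : Prop :=
  ∀ ψ : (ι → Fin q) → ℂ, (∀ φ, K *ᵥ φ = 0 → star φ ⬝ᵥ ψ = 0) →
    Δ * (star ψ ⬝ᵥ ψ).re ≤ (star ψ ⬝ᵥ K *ᵥ ψ).re

end

/-- The `L × L` square lattice. -/
abbrev Site (L : ℕ) := Fin L × Fin L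

/-- The `ℓ¹` distance. -/
def dist1 {L : ℕ} (x y : Site L) : ℕ :=
  ((x.1 : ℤ) - (y.1 : ℤ)).natAbs + ((x.2 : ℤ) - (y.2 : ℤ)).natAbs

/-- Nonempty sets of `ℓ¹` diameter at most `R`. -/
def terms (L R : ℕ) : Finset (Finset (Site L)) :=
  univ.filter fun X => X.Nonempty ∧ ∀ x ∈ X, ∀ y ∈ X, dist1 x y ≤ R

/-- The number of edges between `A` and its complement. -/
def bdry {L : ℕ} (A : Finset (Site L)) : ℕ :=
  (univ.filter fun p : Site L × Site L => p.1 ∈ A ∧ p.2 ∉ A ∧ dist1 p.1 p.2 = 1).card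

section
variable {L q : ℕ}

/-- The local terms are Hermitian, act on their sets and have operator norm at most `J`. -/
def Admissible (R : ℕ) (J : ℝ) (h : Finset (Site L) → Matrix (Site L → Fin q) (Site L → Fin q) ℂ) :
    Prop :=
  ∀ X ∈ terms L R, (h X).IsHermitian ∧ ActsOn X (h X) ∧
    ‖Matrix.toEuclideanCLM (n := Site L → Fin q) (𝕜 := ℂ) (h X)‖ ≤ J

/-- `Ω` minimises every local term: `h X ≥ m X` and `h X Ω = m X Ω`. -/
def FrustrationFree (R : ℕ) (h : Finset (Site L) → Matrix (Site L → Fin q) (Site L → Fin q) ℂ)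
    (m : Finset (Site L) → ℝ) (Ω : (Site L → Fin q) → ℂ) : Prop :=
  ∀ X ∈ terms L R, (h X - (m X : ℂ) • 1).PosSemidef ∧ h X *ᵥ Ω = (m X : ℂ) • Ω

/-- The Hamiltonian restricted to `S`, shifted to ground energy zero. -/
noncomputable def restr (R : ℕ) (h : Finset (Site L) → Matrix (Site L → Fin q) (Site L → Fin q) ℂ)
    (m : Finset (Site L) → ℝ) (S : Finset (Site L)) : Matrix (Site L → Fin q) (Site L → Fin q) ℂ :=
  ∑ X ∈ (terms L R).filter (· ⊆ S), (h X - (m X : ℂ) • 1)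

end

end Vale.Agent.P356
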